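import Vale.Agent.P284.H286.K.EngD

/-!
# P284 (helper286), theorem K: the engine

`eng_of`: `EngStmt` from the modules K1, K3, K45, K7 (and helper47's Hilbert space lemma).
-/

open scoped ContDiff Topology ComplexConjugate ComplexOrder ENNReal
open Filter Set MeasureTheory

noncomputable section

namespace Vale.Agent.P284.H286.K

open Vale.Agent.P272.K Vale.Agent.P284.H608.K

section core

variable {n : ℕ} {M : Type} [TopologicalSpace M] [T2Space M] [MeasurableSpace M] [BorelSpace M]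
  {K : KA n M}

theorem tendsto_conj {f : ℕ → ℂ} (h : Tendsto f atTop (𝓝 0)) :
    Tendsto (fun k => conj (f k)) atTop (𝓝 0) := by
  have h1 := (Complex.continuous_conj.tendsto 0).comp h
  rwa [map_zero] at h1

/-- the engine, with the space `E0` of forms of one degree less (or `0`) abstract -/
theorem eng_core (k1 : K1Stmt) (k3 : K3Stmt n M K) (k45 : K45Stmt n M K)
    (k7 : ∀ [SigmaCompactSpace M], K7Stmt n M K) (χ : K.Cut)
    (hφ : ∀ i, ∀ z ∈ (K.e i).target, (cHess (K.φ i) z).PosSemidef) (r : ℕ) (s₀ : K.Fm (r + 1))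
    (hf : K.IsForm s₀) (hs : K.Smooth s₀) (hn : K.nl s₀ < ⊤) (hd : K.dh s₀ = 0) (C₀ : ℝ)
    (hC : 0 ≤ C₀)
    (hb : ∀ τ : K.Fm r, K.Test τ → ‖K.ip τ (K.S s₀)‖ ^ 2 ≤ C₀ * ∫ x, K.dA τ x ∂K.μ)
    {E0 : Type} [AddCommGroup E0] [Module ℂ E0] (b0 : PreInnerProductSpace.Core ℂ E0)
    (d0 : E0 →ₗ[ℂ] TS K r) (S1 : TS K r →ₗ[ℂ] E0) (c0 : ∀ z, dT' k3 r (d0 z) = 0)
    (bk1 : ∀ t : TS K r, ∫ x, K.dA t.1 x ∂K.μ ≤ K.nq (K.dh t.1) + qf b0 (S1 t))
    (dens1 : ∀ (u : ℕ → TS K r) (v : ℕ → TS K (r + 1)), Cau (tc k1 k3 r) u →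
      Cau (tc k1 k3 (r + 1)) v →
      (∀ z, Tendsto (fun j => (tc k1 k3 r).inner (u j) (sT k3 r z) -
        (tc k1 k3 (r + 1)).inner (v j) z) atTop (𝓝 0)) →
      (∀ z, Tendsto (fun j => (tc k1 k3 r).inner (u j) (d0 z)) atTop (𝓝 0)) →
      ∃ t : ℕ → TS K r, Tendsto (fun k => qf (tc k1 k3 (r + 1)) (dT' k3 r (t k) - v k)) atTop
        (𝓝 0) ∧ Tendsto (fun k => qf b0 (S1 (t k))) atTop (𝓝 0)) :
    ∃ s : K.Fm (r + 1), K.IsForm s ∧ K.Hol s ∧
      (∀ i, ∀ z ∈ (K.e i).target, Ad (K.w i z) (cHess (K.φ i) z) (s i z) = 0) ∧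
      K.nl (s - s₀) ≤ ENNReal.ofReal C₀ := by
  have := sigma_of_cut χ
  set y : ℕ → TS K (r + 1) := fun ν => ⟨cm χ s₀ ν, test_cm χ hf hs ν⟩ with hy
  have hip : ∀ {p : ℕ} (a b : K.Fm p), K.ip a b = conj (K.ip b a) := fun a b => ip_conj k1 a b
  obtain ⟨x, hx1, hx2, hx3⟩ := hilb_core b0 (tc k1 k3 r) (tc k1 k3 (r + 1)) (tc k1 k3 (r + 2))
    d0 (dT' k3 r) (dT' k3 (r + 1)) S1 (sT k3 r) (sT k3 (r + 1))
    (by
      intro t z
      change K.ip (K.S z.1) t.1 = K.ip z.1 (K.dh t.1)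
      rw [hip, hip z.1, k3.adj r t.1 z.1 t.2.form t.2.smooth z.2.form z.2.smooth (Or.inl t.2)])
    (by
      intro t z
      change K.ip (K.S z.1) t.1 = K.ip z.1 (K.dh t.1)
      rw [hip, hip z.1, k3.adj (r + 1) t.1 z.1 t.2.form t.2.smooth z.2.form z.2.smooth
        (Or.inl t.2)])
    c0
    (by
      intro z
      apply Subtype.ext
      exact k3.dh_dh r z.1 z.2)
    dens1
    (by
      intro u hu h1 h2
      obtain ⟨v, hv1, hv2, hv3, hv4⟩ := k45 ⟨χ⟩ r (fun k => (u k).1) (fun _ => 0) (fun _ => 0)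
        (fun k => (u k).2) (fun _ => test_zero K) (fun _ => test_zero K) hu
        (by
          simp only [sub_zero, nq_zero]
          exact tendsto_const_nhds)
        (by
          simp only [sub_zero, nq_zero]
          exact tendsto_const_nhds)
        (by
          intro ψ hψ
          simp only [ip_zero_left, sub_zero]
          have h3 := tendsto_conj (h1 ⟨ψ, hψ⟩)
          refine h3.congr fun k => ?_
          change conj (K.ip (K.S ψ) (u k).1) = K.ip (u k).1 (K.S ψ)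
          exact (hip _ _).symm)
        (by
          intro ψ hψ
          simp only [ip_zero_left, sub_zero]
          have h3 := tendsto_conj (h2 ⟨ψ, hψ⟩)
          refine h3.congr fun k => ?_
          change conj (K.ip (K.dh ψ) (u k).1) = K.ip (u k).1 (K.dh ψ)
          exact (hip _ _).symm)
      refine ⟨fun k => ⟨v k, hv1 k⟩, hv2, ?_, ?_⟩
      · refine hv3.congr fun k => ?_
        rw [sub_zero]
        rfl
      · refine hv4.congr fun k => ?_
        rw [sub_zero]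
        rfl)
    C₀ hC y (cau_cm k1 k3 χ hf hs hn)
    (by
      intro z
      refine tendsto_const_nhds.congr' ?_
      filter_upwards [ip_cm χ s₀ (k3.S_test (r + 1) z.1 z.2)] with ν hν
      change 0 = K.ip (K.S z.1) (cm χ s₀ ν)
      rw [hip, hν, ← k3.adj (r + 1) s₀ z.1 hf hs z.2.form z.2.smooth (Or.inr z.2), hd]
      rw [ip_zero_left, map_zero])
    (by
      intro t
      filter_upwards [ip_cm χ s₀ (k3.dh_test r t.1 t.2)] with ν hν
      change ‖K.ip (cm χ s₀ ν) (K.dh t.1)‖ ^ 2 ≤ C₀ * (K.nq (K.dh t.1) + qf b0 (S1 t))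
      rw [hν, hip, RCLike.norm_conj, k3.adj r t.1 s₀ t.2.form t.2.smooth hf hs (Or.inl t.2)]
      exact (hb t.1 t.2).trans (mul_le_mul_of_nonneg_left (bk1 t) hC))
  -- the limit
  have hT0 : ∀ k, 0 ≤ ∫ z, K.dT (x k).1 z ∂K.μ := fun k =>
    integral_nonneg fun z => dT_nonneg k1 _ z
  have hA0 : ∀ k, 0 ≤ ∫ z, K.dA (x k).1 z ∂K.μ := fun k =>
    integral_nonneg fun z => dA_nonneg k1 hφ _ z
  have hbk : ∀ k, (∫ z, K.dT (x k).1 z ∂K.μ) + (∫ z, K.dA (x k).1 z ∂K.μ) =
      qf (tc k1 k3 (r + 2)) (dT' k3 (r + 1) (x k)) + qf (tc k1 k3 r) (sT k3 r (x k)) := fun k =>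
    (k3.bk r (x k).1 (x k).2).symm
  have hT : Tendsto (fun k => ∫ z, K.dT (x k).1 z ∂K.μ) atTop (𝓝 0) := by
    refine squeeze_zero hT0 (fun k => ?_) hx2
    rw [← hbk k]
    linarith [hA0 k]
  have hA : Tendsto (fun k => ∫ z, K.dA (x k).1 z ∂K.μ) atTop (𝓝 0) := by
    refine squeeze_zero hA0 (fun k => ?_) hx2
    rw [← hbk k]
    linarith [hT0 k]
  obtain ⟨s, hs1, hs2, hs3, hs4⟩ := k7 hφ (r + 1) (fun k => (x k).1) (fun k => (x k).2) hx1 hT hA
  refine ⟨s, hs1, hs2, hs3, ?_⟩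
  have hsm := smooth_of_hol hs2
  have hbj := nl_cm k1 k3 χ hf hs hn
  -- the estimate
  have key : ∀ δ : ℝ, 0 < δ → K.nl (s - s₀) ≤
      ENNReal.ofReal ((1 + δ) * (C₀ + δ) + (1 + δ⁻¹) * (4 * δ ^ 2)) := by
    intro δ hδ
    have hδ2 : (0 : ℝ≥0∞) < ENNReal.ofReal (δ ^ 2) := ENNReal.ofReal_pos.2 (by positivity)
    obtain ⟨k, hk1, hk2⟩ := ((hs4.eventually (gt_mem_nhds hδ2)).and (hx3 δ hδ)).exists
    obtain ⟨j, hj1, hj2⟩ := ((hbj.eventually (gt_mem_nhds hδ2)).and hk2).exists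
    have hk1' : K.nl (s - (x k).1) < ENNReal.ofReal (δ ^ 2) := hk1
    have hj2' : K.nq ((x k).1 - cm χ s₀ j) ≤ C₀ + δ := hj2
    have ty := test_cm χ hf hs j
    have txy : K.Test ((x k).1 - cm χ s₀ j) := (TS K (r + 1)).sub_mem (x k).2 ty
    have e : s - s₀ = ((x k).1 - cm χ s₀ j) + ((s - (x k).1) + (cm χ s₀ j - s₀)) := by abel
    have f1 := form_sub hs1 (x k).2.form
    have f2 := smooth_sub hsm (x k).2.smooth
    have f3 := form_sub ty.form hf
    have f4 := smooth_sub ty.smooth hs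
    have g1 := nl_young k1 k3 txy.form txy.smooth (form_add K f1 f3) (smooth_add K f2 f4) hδ
    have g2 := nl_young k1 k3 f1 f2 f3 f4 one_pos
    rw [inv_one] at g2
    rw [← e] at g1
    have g3 : K.nl ((s - (x k).1) + (cm χ s₀ j - s₀)) ≤ ENNReal.ofReal (4 * δ ^ 2) := by
      refine g2.trans ?_
      have h5 : ENNReal.ofReal (4 * δ ^ 2) = ENNReal.ofReal (1 + 1) * ENNReal.ofReal (δ ^ 2) +
          ENNReal.ofReal (1 + 1) * ENNReal.ofReal (δ ^ 2) := by
        rw [← ENNReal.ofReal_mul (by norm_num), ← ENNReal.ofReal_add (by positivity)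
          (by positivity)]
        congr 1
        ring
      rw [h5]
      gcongr
    have g4 : K.nl ((x k).1 - cm χ s₀ j) ≤ ENNReal.ofReal (C₀ + δ) := by
      rw [nl_eq k1 k3 txy]
      exact ENNReal.ofReal_le_ofReal hj2'
    have hδ' : 0 < δ⁻¹ := inv_pos.2 hδ
    refine g1.trans ?_
    have h8 : ENNReal.ofReal ((1 + δ) * (C₀ + δ) + (1 + δ⁻¹) * (4 * δ ^ 2)) =
        ENNReal.ofReal (1 + δ) * ENNReal.ofReal (C₀ + δ) +
          ENNReal.ofReal (1 + δ⁻¹) * ENNReal.ofReal (4 * δ ^ 2) := by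
      rw [← ENNReal.ofReal_mul (by positivity), ← ENNReal.ofReal_mul (by positivity),
        ← ENNReal.ofReal_add (by positivity) (by positivity)]
    rw [h8]
    gcongr
  have hlim : Tendsto (fun δ : ℝ => ENNReal.ofReal ((1 + δ) * (C₀ + δ) +
      (4 * δ ^ 2 + 4 * δ))) (𝓝[>] 0) (𝓝 (ENNReal.ofReal C₀)) := by
    refine ENNReal.tendsto_ofReal ?_
    have hc : Continuous fun δ : ℝ => (1 + δ) * (C₀ + δ) + (4 * δ ^ 2 + 4 * δ) := by fun_prop
    have h6 := hc.tendsto 0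
    have h7 : (1 + (0 : ℝ)) * (C₀ + 0) + (4 * 0 ^ 2 + 4 * 0) = C₀ := by ring
    rw [h7] at h6
    exact h6.mono_left nhdsWithin_le_nhds
  refine ge_of_tendsto hlim ?_
  filter_upwards [self_mem_nhdsWithin] with δ hδ
  have hδ0 : (0 : ℝ) < δ := hδ
  refine (key δ hδ0).trans (le_of_eq ?_)
  congr 1
  field_simp

end core

/-- **ENGINE** -/
theorem eng_of (k1 : K1Stmt)
    (k3 : ∀ (n : ℕ) (M : Type) [TopologicalSpace M] [T2Space M] [MeasurableSpace M] [BorelSpace M]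
      (K : KA n M), K3Stmt n M K)
    (k45 : ∀ (n : ℕ) (M : Type) [TopologicalSpace M] [T2Space M] [MeasurableSpace M]
      [BorelSpace M] (K : KA n M), K45Stmt n M K)
    (k45z : ∀ (n : ℕ) (M : Type) [TopologicalSpace M] [T2Space M] [MeasurableSpace M]
      [BorelSpace M] (K : KA n M), K45zStmt n M K)
    (k7 : ∀ (n : ℕ) (M : Type) [TopologicalSpace M] [T2Space M] [SigmaCompactSpace M]
      [MeasurableSpace M] [BorelSpace M] (K : KA n M), K7Stmt n M K) : EngStmt := by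
  intro n M _ _ _ _ K χ hφ r s₀ hf hs hn hd C₁ hb₁
  -- a nonnegative constant
  have hA0 : ∀ τ : K.Fm r, 0 ≤ ∫ x, K.dA τ x ∂K.μ := fun τ =>
    integral_nonneg fun z => dA_nonneg k1 hφ _ z
  have hb : ∀ τ : K.Fm r, K.Test τ →
      ‖K.ip τ (K.S s₀)‖ ^ 2 ≤ max C₁ 0 * ∫ x, K.dA τ x ∂K.μ := fun τ hτ =>
    (hb₁ τ hτ).trans (mul_le_mul_of_nonneg_right (le_max_left _ _) (hA0 τ))
  have hC1 : ENNReal.ofReal C₁ = ENNReal.ofReal (max C₁ 0) := by
    rcases le_total C₁ 0 with h | h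
    · rw [max_eq_right h, ENNReal.ofReal_zero, ENNReal.ofReal_of_nonpos h]
    · rw [max_eq_left h]
  rw [hC1]
  have h3 := k3 n M K
  have hip : ∀ {p : ℕ} (a b : K.Fm p), K.ip a b = conj (K.ip b a) := fun a b => ip_conj k1 a b
  rcases r with _ | r
  · -- degree `1`
    refine eng_core k1 h3 (k45 n M K) (k7 n M K) χ hφ 0 s₀ hf hs hn hd (max C₁ 0)
      (le_max_right _ _) hb (E0 := ℂ)
      { inner := fun x y => conj x * y
        conj_inner_symm := fun x y => by rw [map_mul, Complex.conj_conj, mul_comm]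
        re_inner_nonneg := fun x => by
          rw [← Complex.normSq_eq_conj_mul_self]
          exact Complex.normSq_nonneg x
        add_left := fun x y z => by rw [map_add, add_mul]
        smul_left := fun x y r => by rw [smul_eq_mul, map_mul, mul_assoc] }
      0 0 (fun z => by rw [LinearMap.zero_apply, map_zero]) ?_ ?_
    · intro t
      have h4 := h3.bk0 t.1 t.2
      have h5 : 0 ≤ ∫ z, K.dT t.1 z ∂K.μ := integral_nonneg fun z => dT_nonneg k1 _ z
      have h6 : (conj (0 : ℂ) * 0).re = 0 := by simp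
      change _ ≤ K.nq (K.dh t.1) + (conj (0 : ℂ) * 0).re
      rw [h6, h4, add_zero]
      linarith
    · intro u v hu hv h1 _
      obtain ⟨t, ht1, -, ht3⟩ := k45z n M K ⟨χ⟩ (fun k => (u k).1) (fun k => (v k).1)
        (fun k => (u k).2) (fun k => (v k).2) hu hv (by
          intro ψ hψ
          have h4 := tendsto_conj (h1 ⟨ψ, hψ⟩)
          refine h4.congr fun k => ?_
          change conj (K.ip (K.S ψ) (u k).1 - K.ip ψ (v k).1) =
            K.ip (u k).1 (K.S ψ) - K.ip (v k).1 ψ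
          rw [map_sub, ← hip, ← hip])
      refine ⟨fun k => ⟨t k, ht1 k⟩, ht3, ?_⟩
      refine tendsto_const_nhds.congr fun k => ?_
      change (0 : ℝ) = (conj (0 : ℂ) * 0).re
      simp
  · -- degree `r + 2`
    refine eng_core k1 h3 (k45 n M K) (k7 n M K) χ hφ (r + 1) s₀ hf hs hn hd (max C₁ 0)
      (le_max_right _ _) hb (tc k1 h3 r) (dT' h3 r) (sT h3 r) ?_ ?_ ?_
    · intro z
      apply Subtype.ext
      exact h3.dh_dh r z.1 z.2
    · intro t
      have h4 := h3.bk r t.1 t.2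
      have h5 : 0 ≤ ∫ z, K.dT t.1 z ∂K.μ := integral_nonneg fun z => dT_nonneg k1 _ z
      change _ ≤ K.nq (K.dh t.1) + K.nq (K.S t.1)
      linarith
    · intro u v hu hv h1 h2
      obtain ⟨t, ht1, -, ht3, ht4⟩ := k45 n M K ⟨χ⟩ r (fun k => (u k).1) (fun k => (v k).1)
        (fun _ => 0) (fun k => (u k).2) (fun k => (v k).2) (fun _ => test_zero K) hu hv
        (by
          simp only [sub_zero, nq_zero]
          exact tendsto_const_nhds)
        (by
          intro ψ hψ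
          have h4 := tendsto_conj (h1 ⟨ψ, hψ⟩)
          refine h4.congr fun k => ?_
          change conj (K.ip (K.S ψ) (u k).1 - K.ip ψ (v k).1) =
            K.ip (u k).1 (K.S ψ) - K.ip (v k).1 ψ
          rw [map_sub, ← hip, ← hip])
        (by
          intro ψ hψ
          simp only [ip_zero_left, sub_zero]
          have h4 := tendsto_conj (h2 ⟨ψ, hψ⟩)
          refine h4.congr fun k => ?_
          change conj (K.ip (K.dh ψ) (u k).1) = K.ip (u k).1 (K.dh ψ)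
          exact (hip _ _).symm)
      refine ⟨fun k => ⟨t k, ht1 k⟩, ht3, ?_⟩
      refine ht4.congr fun k => ?_
      rw [sub_zero]
      rfl

end Vale.Agent.P284.H286.K
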