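import Vale.Agent.P284.H608.K.Spec

/-!
# P284 (helper286), theorem K, the engine: pointwise algebra of the densities
-/

open scoped ContDiff Topology ComplexConjugate ComplexOrder ENNReal
open Filter Set MeasureTheory

noncomputable section

namespace Vale.Agent.P284.H286.K

open Vale.Agent.P272.K Vale.Agent.P284.H608.K

section algebra

variable {n p : ℕ} (w : Matrix (Fin n) (Fin n) ℂ)

theorem hn_add_left (A A' B : Af n p) : hn w (A + A') B = hn w A B + hn w A' B := by
  unfold hn
  rw [← mul_add, ← Finset.sum_add_distrib]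
  congr 1
  refine Finset.sum_congr rfl fun s _ => ?_
  rw [← Finset.sum_add_distrib]
  refine Finset.sum_congr rfl fun t _ => ?_
  have : ev (A + A') s = ev A s + ev A' s := rfl
  rw [this]
  ring

theorem hn_smul_left (c : ℂ) (A B : Af n p) : hn w (c • A) B = c * hn w A B := by
  unfold hn
  rw [mul_left_comm _ ((p.factorial : ℂ))⁻¹]
  congr 1
  rw [Finset.mul_sum]
  refine Finset.sum_congr rfl fun s _ => ?_
  rw [Finset.mul_sum]
  refine Finset.sum_congr rfl fun t _ => ?_
  have : ev (c • A) s = c * ev A s := rfl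
  rw [this]
  ring

theorem hn_add_right (A B B' : Af n p) : hn w A (B + B') = hn w A B + hn w A B' := by
  unfold hn
  rw [← mul_add, ← Finset.sum_add_distrib]
  congr 1
  refine Finset.sum_congr rfl fun s _ => ?_
  rw [← Finset.sum_add_distrib]
  refine Finset.sum_congr rfl fun t _ => ?_
  have : ev (B + B') t = ev B t + ev B' t := rfl
  rw [this, map_add]
  ring

theorem hn_smul_right (c : ℂ) (A B : Af n p) : hn w A (c • B) = conj c * hn w A B := by
  unfold hn
  rw [mul_left_comm _ ((p.factorial : ℂ))⁻¹]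
  congr 1
  rw [Finset.mul_sum]
  refine Finset.sum_congr rfl fun s _ => ?_
  rw [Finset.mul_sum]
  refine Finset.sum_congr rfl fun t _ => ?_
  have : ev (c • B) t = c * ev B t := rfl
  rw [this, map_mul]
  ring

theorem hn_zero_left (B : Af n p) : hn w (0 : Af n p) B = 0 := by
  have h0 : (0 : ℂ) • (0 : Af n p) = 0 := by
    ext v
    exact mul_zero _
  have h := hn_smul_left w 0 (0 : Af n p) B
  rw [zero_mul, h0] at h
  exact h

theorem hn_zero_right (A : Af n p) : hn w A (0 : Af n p) = 0 := by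
  have h0 : (0 : ℂ) • (0 : Af n p) = 0 := by
    ext v
    exact mul_zero _
  have h := hn_smul_right w 0 A (0 : Af n p)
  rw [map_zero, zero_mul, h0] at h
  exact h

variable {w}

theorem hn_nonneg (k1 : K1Stmt) (hw : w.PosDef) (A : Af n p) : 0 ≤ hn w A A := by
  by_cases hA : A = 0
  · rw [hA, hn_zero_left]
  · exact (k1.pos n p w hw A hA).le

/-- Young's inequality -/
theorem hn_young (k1 : K1Stmt) (hw : w.PosDef) (A B : Af n p) {δ : ℝ} (hδ : 0 < δ) :
    (hn w (A + B) (A + B)).re ≤ (1 + δ) * (hn w A A).re + (1 + δ⁻¹) * (hn w B B).re := by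
  have h1 := hn_nonneg k1 hw ((δ : ℂ) • A + (-1 : ℂ) • B)
  have h2 := (Complex.nonneg_iff.1 h1).1
  rw [hn_add_left, hn_add_right, hn_add_right, hn_smul_left, hn_smul_left, hn_smul_left,
    hn_smul_left, hn_smul_right, hn_smul_right, hn_smul_right, hn_smul_right] at h2
  have h3 : hn w B A = conj (hn w A B) := k1.conj_symm n p w hw B A
  rw [hn_add_left, hn_add_right, hn_add_right, h3]
  rw [h3] at h2
  simp only [Complex.add_re, Complex.mul_re, Complex.ofReal_re, Complex.ofReal_im, Complex.conj_re,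
    Complex.conj_im, map_neg, map_one, Complex.neg_re, Complex.neg_im, Complex.one_re,
    Complex.one_im, Complex.conj_ofReal, Complex.mul_im] at h2 ⊢
  have h4 : 2 * (hn w A B).re ≤ δ * (hn w A A).re + δ⁻¹ * (hn w B B).re := by
    have h5 : 0 ≤ δ ^ 2 * (hn w A A).re - 2 * δ * (hn w A B).re + (hn w B B).re := by
      nlinarith
    have h6 : 0 ≤ δ⁻¹ * (δ ^ 2 * (hn w A A).re - 2 * δ * (hn w A B).re + (hn w B B).re) :=
      mul_nonneg (inv_pos.2 hδ).le h5
    have h7 : δ⁻¹ * (δ ^ 2 * (hn w A A).re - 2 * δ * (hn w A B).re + (hn w B B).re) =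
        δ * (hn w A A).re + δ⁻¹ * (hn w B B).re - 2 * (hn w A B).re := by
      field_simp
      ring
    linarith
  linarith

end algebra

section cal

variable {n p : ℕ}

theorem dzV_add {V : Type} [NormedAddCommGroup V] [NormedSpace ℂ V] (a : Fin n) {η ζ : Cm n → V}
    {z : Cm n} (h1 : DifferentiableAt ℝ η z) (h2 : DifferentiableAt ℝ ζ z) :
    dzV a (η + ζ) z = dzV a η z + dzV a ζ z := by
  unfold dzV
  rw [fderiv_add h1 h2]
  simp only [add_apply, smul_add, smul_sub]
  abel

theorem dbV_add {V : Type} [NormedAddCommGroup V] [NormedSpace ℂ V] (a : Fin n) {η ζ : Cm n → V}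
    {z : Cm n} (h1 : DifferentiableAt ℝ η z) (h2 : DifferentiableAt ℝ ζ z) :
    dbV a (η + ζ) z = dbV a η z + dbV a ζ z := by
  unfold dbV
  rw [fderiv_add h1 h2]
  simp only [add_apply, smul_add]
  abel

theorem dzV_smul {V : Type} [NormedAddCommGroup V] [NormedSpace ℂ V] (a : Fin n) {η : Cm n → V}
    (c : ℂ) {z : Cm n} (h1 : DifferentiableAt ℝ η z) : dzV a (c • η) z = c • dzV a η z := by
  unfold dzV
  rw [fderiv_const_smul h1]
  simp only [smul_apply, smul_sub]
  rw [smul_comm c, smul_comm c, smul_comm Complex.I c]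

theorem dbV_smul {V : Type} [NormedAddCommGroup V] [NormedSpace ℂ V] (a : Fin n) {η : Cm n → V}
    (c : ℂ) {z : Cm n} (h1 : DifferentiableAt ℝ η z) : dbV a (c • η) z = c • dbV a η z := by
  unfold dbV
  rw [fderiv_const_smul h1]
  simp only [smul_apply, smul_add]
  rw [smul_comm c, smul_comm c, smul_comm Complex.I c]

theorem dhL_add (φ : Cm n → ℝ) {η ζ : Cm n → Af n p} {z : Cm n} (h1 : DifferentiableAt ℝ η z)
    (h2 : DifferentiableAt ℝ ζ z) : dhL φ (η + ζ) z = dhL φ η z + dhL φ ζ z := by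
  unfold dhL
  rw [← ContinuousAlternatingMap.alternatizeUncurryFin_add, ← Finset.sum_add_distrib]
  congr 1
  refine Finset.sum_congr rfl fun a _ => ?_
  rw [dzV_add a h1 h2, Pi.add_apply, smul_add]
  ext v u
  simp only [ContinuousLinearMap.smulRight_apply, add_apply,
    ContinuousAlternatingMap.smul_apply, ContinuousAlternatingMap.add_apply,
    ContinuousAlternatingMap.sub_apply, smul_eq_mul]
  ring

theorem dhL_smul (φ : Cm n → ℝ) {η : Cm n → Af n p} (c : ℂ) {z : Cm n}
    (h1 : DifferentiableAt ℝ η z) : dhL φ (c • η) z = c • dhL φ η z := by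
  unfold dhL
  rw [← ContinuousAlternatingMap.alternatizeUncurryFin_smul, Finset.smul_sum]
  congr 1
  refine Finset.sum_congr rfl fun a _ => ?_
  rw [dzV_smul a c h1, Pi.smul_apply]
  ext v u
  simp only [ContinuousLinearMap.smulRight_apply, smul_apply,
    ContinuousAlternatingMap.smul_apply, ContinuousAlternatingMap.sub_apply, smul_eq_mul]
  ring

theorem Lam_add (w : Matrix (Fin n) (Fin n) ℂ) (T T' : Fin n → Af n (p + 1)) :
    Lam w (fun b => T b + T' b) = Lam w T + Lam w T' := by
  unfold Lam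
  rw [← Finset.sum_add_distrib]
  refine Finset.sum_congr rfl fun a _ => ?_
  rw [← Finset.sum_add_distrib]
  refine Finset.sum_congr rfl fun b _ => ?_
  exact smul_add (w⁻¹ b a) ((T b).curryLeft (Pi.single a 1)) ((T' b).curryLeft (Pi.single a 1))

theorem Lam_smul (w : Matrix (Fin n) (Fin n) ℂ) (c : ℂ) (T : Fin n → Af n (p + 1)) :
    Lam w (fun b => c • T b) = c • Lam w T := by
  unfold Lam
  rw [Finset.smul_sum]
  refine Finset.sum_congr rfl fun a _ => ?_
  rw [Finset.smul_sum]
  refine Finset.sum_congr rfl fun b _ => ?_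
  exact smul_comm (w⁻¹ b a) c ((T b).curryLeft (Pi.single a 1))

theorem SL_add (w : Cm n → Matrix (Fin n) (Fin n) ℂ) {η ζ : Cm n → Af n (p + 1)} {z : Cm n}
    (h1 : DifferentiableAt ℝ η z) (h2 : DifferentiableAt ℝ ζ z) :
    SL w (η + ζ) z = SL w η z + SL w ζ z := by
  unfold SL
  rw [← neg_add, ← Lam_add]
  congr 2
  funext b
  exact dbV_add b h1 h2

theorem SL_smul (w : Cm n → Matrix (Fin n) (Fin n) ℂ) {η : Cm n → Af n (p + 1)} (c : ℂ)
    {z : Cm n} (h1 : DifferentiableAt ℝ η z) : SL w (c • η) z = c • SL w η z := by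
  unfold SL
  rw [smul_neg, ← Lam_smul]
  congr 2
  funext b
  exact dbV_smul b c h1

end cal

end Vale.Agent.P284.H286.K
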