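import Vale.Agent.P284.H47.K.Hilb

/-!
# P284 (helper286), theorem K, the engine: the Hilbert space lemma for modules with a Hermitian form
-/

open Filter Set Topology
open scoped InnerProductSpace

noncomputable section

namespace Vale.Agent.P284.H286.K

/-- the quadratic form of a pre-inner product -/
def qf {E : Type} [AddCommGroup E] [Module ℂ E] (b : PreInnerProductSpace.Core ℂ E) (x : E) : ℝ :=
  (b.inner x x).re

/-- Cauchy sequences -/
def Cau {E : Type} [AddCommGroup E] [Module ℂ E] (b : PreInnerProductSpace.Core ℂ E) (x : ℕ → E) :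
    Prop :=
  Tendsto (fun q : ℕ × ℕ => qf b (x q.1 - x q.2)) atTop (𝓝 0)

abbrev ng {E : Type} [AddCommGroup E] [Module ℂ E] (b : PreInnerProductSpace.Core ℂ E) :
    SeminormedAddCommGroup E :=
  @InnerProductSpace.Core.toSeminormedAddCommGroup ℂ E _ _ _ b

theorem sq_norm {E : Type} [AddCommGroup E] [Module ℂ E] (b : PreInnerProductSpace.Core ℂ E)
    (x : E) : (ng b).norm x ^ 2 = qf b x := by
  have h2 : 0 ≤ qf b x := b.re_inner_nonneg x
  exact Real.sq_sqrt h2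

theorem cau_iff {E : Type} [AddCommGroup E] [Module ℂ E] (b : PreInnerProductSpace.Core ℂ E)
    (x : ℕ → E) :
    Cau b x ↔ @CauchySeq E ℕ (ng b).toPseudoMetricSpace.toUniformSpace _ x := by
  let := ng b
  rw [cauchySeq_iff_tendsto_dist_atTop_0]
  have h1 : ∀ q : ℕ × ℕ, dist (x q.1) (x q.2) ^ 2 = qf b (x q.1 - x q.2) := by
    intro q
    rw [dist_eq_norm]
    exact sq_norm b _
  unfold Cau
  constructor
  · intro h
    have h2 : Tendsto (fun q : ℕ × ℕ => Real.sqrt (qf b (x q.1 - x q.2))) atTop (𝓝 (Real.sqrt 0)) :=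
      (Real.continuous_sqrt.tendsto 0).comp h
    rw [Real.sqrt_zero] at h2
    refine h2.congr fun q => ?_
    rw [← h1, Real.sqrt_sq dist_nonneg]
  · intro h
    have h2 := h.pow 2
    rw [zero_pow two_ne_zero] at h2
    exact h2.congr h1

/-- the Hilbert space lemma -/
theorem hilb_core {E0 E1 E2 E3 : Type} [AddCommGroup E0] [Module ℂ E0] [AddCommGroup E1]
    [Module ℂ E1] [AddCommGroup E2] [Module ℂ E2] [AddCommGroup E3] [Module ℂ E3]
    (b0 : PreInnerProductSpace.Core ℂ E0) (b1 : PreInnerProductSpace.Core ℂ E1)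
    (b2 : PreInnerProductSpace.Core ℂ E2) (b3 : PreInnerProductSpace.Core ℂ E3)
    (d0 : E0 →ₗ[ℂ] E1) (d1 : E1 →ₗ[ℂ] E2) (d2 : E2 →ₗ[ℂ] E3)
    (S1 : E1 →ₗ[ℂ] E0) (S2 : E2 →ₗ[ℂ] E1) (S3 : E3 →ₗ[ℂ] E2)
    (a1 : ∀ t z, b1.inner t (S2 z) = b2.inner (d1 t) z)
    (a2 : ∀ t z, b2.inner t (S3 z) = b3.inner (d2 t) z)
    (c0 : ∀ z, d1 (d0 z) = 0) (c1 : ∀ z, d2 (d1 z) = 0)
    (dens1 : ∀ (u : ℕ → E1) (v : ℕ → E2), Cau b1 u → Cau b2 v →
      (∀ z, Tendsto (fun j => b1.inner (u j) (S2 z) - b2.inner (v j) z) atTop (𝓝 0)) →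
      (∀ z, Tendsto (fun j => b1.inner (u j) (d0 z)) atTop (𝓝 0)) →
      ∃ t : ℕ → E1, Tendsto (fun k => qf b2 (d1 (t k) - v k)) atTop (𝓝 0) ∧
        Tendsto (fun k => qf b0 (S1 (t k))) atTop (𝓝 0))
    (dens2 : ∀ u : ℕ → E2, Cau b2 u →
      (∀ z, Tendsto (fun j => b2.inner (u j) (S3 z)) atTop (𝓝 0)) →
      (∀ t, Tendsto (fun j => b2.inner (u j) (d1 t)) atTop (𝓝 0)) →
      ∃ x : ℕ → E2, Tendsto (fun k => qf b2 (x k - u k)) atTop (𝓝 0) ∧
        Tendsto (fun k => qf b3 (d2 (x k))) atTop (𝓝 0) ∧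
        Tendsto (fun k => qf b1 (S2 (x k))) atTop (𝓝 0))
    (C₀ : ℝ) (hC : 0 ≤ C₀) (y : ℕ → E2) (hy : Cau b2 y)
    (hs : ∀ z, Tendsto (fun j => b2.inner (y j) (S3 z)) atTop (𝓝 0))
    (hb : ∀ t, ∀ᶠ j in atTop,
      ‖b2.inner (d1 t) (y j)‖ ^ 2 ≤ C₀ * (qf b2 (d1 t) + qf b0 (S1 t))) :
    ∃ x : ℕ → E2, Cau b2 x ∧
      Tendsto (fun k => qf b3 (d2 (x k)) + qf b1 (S2 (x k))) atTop (𝓝 0) ∧
      ∀ ε : ℝ, 0 < ε → ∀ᶠ k in atTop, ∀ᶠ j in atTop, qf b2 (x k - y j) ≤ C₀ + ε := by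
  let i0 := ng b0
  let i1 := ng b1
  let i2 := ng b2
  let i3 := ng b3
  let j0 : InnerProductSpace ℂ E0 := InnerProductSpace.ofCore b0
  let j1 : InnerProductSpace ℂ E1 := InnerProductSpace.ofCore b1
  let j2 : InnerProductSpace ℂ E2 := InnerProductSpace.ofCore b2
  let j3 : InnerProductSpace ℂ E3 := InnerProductSpace.ofCore b3
  have n0 : ∀ x : E0, ‖x‖ ^ 2 = qf b0 x := sq_norm b0
  have n1 : ∀ x : E1, ‖x‖ ^ 2 = qf b1 x := sq_norm b1
  have n2 : ∀ x : E2, ‖x‖ ^ 2 = qf b2 x := sq_norm b2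
  have n3 : ∀ x : E3, ‖x‖ ^ 2 = qf b3 x := sq_norm b3
  -- from `q → 0` to `∃ k` small
  have key : ∀ (v t : ℕ → E2), CauchySeq v → Tendsto (fun k => qf b2 (t k - v k)) atTop (𝓝 0) →
      ∀ ε : ℝ, 0 < ε → ∀ᶠ k in atTop, ∀ᶠ j in atTop, ‖t k - v j‖ < ε := by
    intro v t hv ht ε hε
    have h1 : Tendsto (fun k => ‖t k - v k‖) atTop (𝓝 0) := by
      have h2 : Tendsto (fun k => Real.sqrt (qf b2 (t k - v k))) atTop (𝓝 (Real.sqrt 0)) :=
        (Real.continuous_sqrt.tendsto 0).comp ht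
      rw [Real.sqrt_zero] at h2
      refine h2.congr fun k => ?_
      rw [← n2, Real.sqrt_sq (norm_nonneg _)]
    rw [Metric.cauchySeq_iff] at hv
    obtain ⟨N, hN⟩ := hv (ε / 2) (by positivity)
    filter_upwards [h1.eventually (gt_mem_nhds (show (0 : ℝ) < ε / 2 by positivity)),
      eventually_ge_atTop N] with k hk hkN
    filter_upwards [eventually_ge_atTop N] with j hj
    have h3 := hN k hkN j hj
    rw [dist_eq_norm] at h3
    calc ‖t k - v j‖ = ‖(t k - v k) + (v k - v j)‖ := by congr 1; abel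
      _ ≤ ‖t k - v k‖ + ‖v k - v j‖ := norm_add_le _ _
      _ < ε := by linarith
  obtain ⟨x, h1, h2, h3⟩ := Vale.Agent.P284.H47.K.hilb_seq (𝕜 := ℂ) d0 d1 d2 S1 S2 S3 a1 a2 c0 c1
    (by
      intro u v hu hv h1 h2 ε hε
      obtain ⟨t, ht1, ht2⟩ := dens1 u v ((cau_iff b1 u).2 hu) ((cau_iff b2 v).2 hv) h1 h2
      obtain ⟨k, hk1, hk2⟩ := ((key v (fun k => d1 (t k)) hv ht1 ε hε).and
        (ht2.eventually (gt_mem_nhds hε))).exists
      refine ⟨t k, hk1, ?_⟩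
      rw [n0]
      exact hk2)
    (by
      intro u hu h1 h2 ε hε
      obtain ⟨x, hx1, hx2, hx3⟩ := dens2 u ((cau_iff b2 u).2 hu) h1 h2
      have h4 := hx2.add hx3
      rw [add_zero] at h4
      obtain ⟨k, hk1, hk2⟩ := ((key u x hu hx1 ε hε).and
        (h4.eventually (gt_mem_nhds hε))).exists
      refine ⟨x k, hk1, ?_⟩
      rw [n3, n1]
      exact hk2)
    C₀ hC y ((cau_iff b2 y).1 hy) hs
    (by
      intro t ε hε
      filter_upwards [hb t] with j hj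
      rw [n2, n0]
      have : ‖⟪d1 t, y j⟫_ℂ‖ ^ 2 ≤ C₀ * (qf b2 (d1 t) + qf b0 (S1 t)) := hj
      linarith)
  refine ⟨x, (cau_iff b2 x).2 h1, ?_, ?_⟩
  · refine h2.congr fun k => ?_
    rw [n3, n1]
  · intro ε hε
    filter_upwards [h3 ε hε] with k hk
    filter_upwards [hk] with j hj
    rw [← n2]
    exact hj

end Vale.Agent.P284.H286.K
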