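import Vale.Agent.P284.H286.K.EngA
import Vale.Agent.P284.H286.K.EngC

/-!
# P284 (helper286), theorem K, the engine: the spaces of test forms
-/

open scoped ContDiff Topology ComplexConjugate ComplexOrder ENNReal
open Filter Set MeasureTheory

noncomputable section

namespace Vale.Agent.P284.H286.K

open Vale.Agent.P272.K Vale.Agent.P284.H608.K

variable {n : ℕ} {M : Type} [TopologicalSpace M] [MeasurableSpace M] (K : KA n M)

theorem form_add {p : ℕ} {η ζ : K.Fm p} (h1 : K.IsForm η) (h2 : K.IsForm ζ) :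
    K.IsForm (η + ζ) where
  change i j x hi hj := by
    have e1 := h1.change i j x hi hj
    have e2 := h2.change i j x hi hj
    ext v
    have f1 := congrArg (fun A : Af n p => A v) e1
    have f2 := congrArg (fun A : Af n p => A v) e2
    simp only [ContinuousAlternatingMap.smul_apply,
      ContinuousAlternatingMap.compContinuousLinearMap_apply, Pi.add_apply,
      ContinuousAlternatingMap.add_apply, smul_eq_mul] at f1 f2 ⊢
    rw [f1, f2]
    ring
  off i z hz := by
    rw [Pi.add_apply, Pi.add_apply, h1.off i z hz, h2.off i z hz, add_zero]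

theorem form_smul {p : ℕ} {η : K.Fm p} (c : ℂ) (h1 : K.IsForm η) : K.IsForm (c • η) where
  change i j x hi hj := by
    have e1 := h1.change i j x hi hj
    ext v
    have f1 := congrArg (fun A : Af n p => A v) e1
    simp only [ContinuousAlternatingMap.smul_apply,
      ContinuousAlternatingMap.compContinuousLinearMap_apply, Pi.smul_apply, smul_eq_mul] at f1 ⊢
    rw [f1]
    ring
  off i z hz := by
    rw [Pi.smul_apply, Pi.smul_apply, h1.off i z hz]
    ext v
    exact mul_zero _

theorem form_zero {p : ℕ} : K.IsForm (0 : K.Fm p) where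
  change i j x hi hj := by
    ext v
    exact (mul_zero _).symm
  off i z hz := rfl

theorem smooth_add {p : ℕ} {η ζ : K.Fm p} (h1 : K.Smooth η) (h2 : K.Smooth ζ) :
    K.Smooth (η + ζ) := fun i z hz => (h1 i z hz).add (h2 i z hz)

theorem smooth_smul {p : ℕ} {η : K.Fm p} (c : ℂ) (h1 : K.Smooth η) :
    K.Smooth (c • η) := fun i z hz => (h1 i z hz).const_smul c

theorem smooth_zero {p : ℕ} : K.Smooth (0 : K.Fm p) := fun _ _ _ => contDiffAt_const

theorem test_add {p : ℕ} {η ζ : K.Fm p} (h1 : K.Test η) (h2 : K.Test ζ) : K.Test (η + ζ) where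
  form := form_add K h1.form h2.form
  smooth := smooth_add K h1.smooth h2.smooth
  supp := by
    obtain ⟨C, hC, h3⟩ := h1.supp
    obtain ⟨D, hD, h4⟩ := h2.supp
    refine ⟨C ∪ D, hC.union hD, fun i x hx hx2 => ?_⟩
    rw [Pi.add_apply, Pi.add_apply, h3 i x hx fun h => hx2 (Or.inl h),
      h4 i x hx fun h => hx2 (Or.inr h), add_zero]

theorem test_smul {p : ℕ} {η : K.Fm p} (c : ℂ) (h1 : K.Test η) : K.Test (c • η) where
  form := form_smul K c h1.form
  smooth := smooth_smul K c h1.smooth
  supp := by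
    obtain ⟨C, hC, h3⟩ := h1.supp
    refine ⟨C, hC, fun i x hx hx2 => ?_⟩
    rw [Pi.smul_apply, Pi.smul_apply, h3 i x hx hx2]
    ext v
    exact mul_zero _

theorem test_zero {p : ℕ} : K.Test (0 : K.Fm p) where
  form := form_zero K
  smooth := smooth_zero K
  supp := ⟨∅, isCompact_empty, fun _ _ _ _ => rfl⟩

/-- the space of test forms -/
def TS (p : ℕ) : Submodule ℂ (K.Fm p) where
  carrier := {η | K.Test η}
  add_mem' h1 h2 := test_add K h1 h2
  zero_mem' := test_zero K
  smul_mem' c _ h := test_smul K c h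

section dens

variable {K} {p : ℕ}

theorem dn_add_left (η η' ζ : K.Fm p) : K.dn (η + η') ζ = K.dn η ζ + K.dn η' ζ := by
  funext x
  simp only [KA.dn, Pi.add_apply, hn_add_left]
  ring

theorem dn_smul_left (c : ℂ) (η ζ : K.Fm p) : K.dn (c • η) ζ = fun x => c * K.dn η ζ x := by
  funext x
  simp only [KA.dn, Pi.smul_apply, hn_smul_left]
  ring

theorem dn_add_right (η ζ ζ' : K.Fm p) : K.dn η (ζ + ζ') = K.dn η ζ + K.dn η ζ' := by
  funext x
  simp only [KA.dn, Pi.add_apply, hn_add_right]
  ring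

theorem dn_smul_right (c : ℂ) (η ζ : K.Fm p) :
    K.dn η (c • ζ) = fun x => conj c * K.dn η ζ x := by
  funext x
  simp only [KA.dn, Pi.smul_apply, hn_smul_right]
  ring

theorem mem_ix (K : KA n M) (x : M) : x ∈ (K.e (K.ix x)).source := (K.cover x).choose_spec

theorem dn_conj (k1 : K1Stmt) (η ζ : K.Fm p) (x : M) : K.dn η ζ x = conj (K.dn ζ η x) := by
  unfold KA.dn
  rw [map_mul, Complex.conj_ofReal, ← k1.conj_symm n p _
    (K.wpos _ _ ((K.e (K.ix x)).map_source (mem_ix K x)))]

theorem dn_nonneg (k1 : K1Stmt) (η : K.Fm p) (x : M) : 0 ≤ (K.dn η η x).re := by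
  unfold KA.dn
  rw [Complex.re_ofReal_mul]
  exact mul_nonneg (Real.exp_pos _).le (Complex.nonneg_iff.1 (hn_nonneg k1
    (K.wpos _ _ ((K.e (K.ix x)).map_source (mem_ix K x))) _)).1

theorem dn_young (k1 : K1Stmt) (η ζ : K.Fm p) {δ : ℝ} (hδ : 0 < δ) (x : M) :
    (K.dn (η + ζ) (η + ζ) x).re ≤ (1 + δ) * (K.dn η η x).re + (1 + δ⁻¹) * (K.dn ζ ζ x).re := by
  unfold KA.dn
  rw [Complex.re_ofReal_mul, Complex.re_ofReal_mul, Complex.re_ofReal_mul]
  have h := hn_young k1 (K.wpos _ _ ((K.e (K.ix x)).map_source (mem_ix K x)))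
    (η (K.ix x) (K.e (K.ix x) x)) (ζ (K.ix x) (K.e (K.ix x) x)) hδ
  have h2 := mul_le_mul_of_nonneg_left h
    (Real.exp_pos (-K.φ (K.ix x) (K.e (K.ix x) x))).le
  refine h2.trans (le_of_eq ?_)
  ring

theorem ip_conj (k1 : K1Stmt) (η ζ : K.Fm p) : K.ip η ζ = conj (K.ip ζ η) := by
  unfold KA.ip
  rw [← integral_conj]
  exact integral_congr_ae (Eventually.of_forall fun x => dn_conj k1 η ζ x)

theorem ip_smul_left (c : ℂ) (η ζ : K.Fm p) : K.ip (c • η) ζ = c * K.ip η ζ := by
  unfold KA.ip
  rw [dn_smul_left, integral_const_mul]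

theorem ip_smul_right (c : ℂ) (η ζ : K.Fm p) : K.ip η (c • ζ) = conj c * K.ip η ζ := by
  unfold KA.ip
  rw [dn_smul_right, integral_const_mul]

end dens

variable {K} [T2Space M] [BorelSpace M]

/-- the densities of forms are continuous -/
theorem continuous_dn {p : ℕ} (k3 : K3Stmt n M K) {η ζ : K.Fm p} (h1 : K.IsForm η)
    (h2 : K.Smooth η) (h3 : K.IsForm ζ) (h4 : K.Smooth ζ) : Continuous (K.dn η ζ) := by
  rw [continuous_iff_continuousAt]
  intro x
  obtain ⟨i, hi⟩ := K.cover x
  have ho := (K.e i).open_source.mem_nhds hi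
  have hz := (K.e i).map_source hi
  have hec : ContinuousAt (K.e i) x := (K.e i).continuousAt hi
  have hev : K.dn η ζ =ᶠ[𝓝 x] fun x => (Real.exp (-K.φ i (K.e i x)) : ℂ) *
      hn (K.w i (K.e i x)) (η i (K.e i x)) (ζ i (K.e i x)) := by
    filter_upwards [ho] with y hy
    exact k3.dn_eq p η ζ h1 h3 i y hy
  refine ContinuousAt.congr ?_ hev.symm
  have c1 : ContinuousAt (fun x => ((Real.exp (-K.φ i (K.e i x)) : ℝ) : ℂ)) x :=
    Complex.continuous_ofReal.continuousAt.comp (Real.continuous_exp.continuousAt.comp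
      ((((K.φsm i _ hz).continuousAt).comp hec).neg))
  have cη : ContinuousAt (fun x => η i (K.e i x)) x := (h2 i _ hz).continuousAt.comp hec
  have cζ : ContinuousAt (fun x => ζ i (K.e i x)) x := (h4 i _ hz).continuousAt.comp hec
  have cw : ContinuousAt (fun x => K.w i (K.e i x)) x := by
    refine ContinuousAt.comp (g := K.w i) ?_ hec
    exact continuousAt_pi.2 fun a => continuousAt_pi.2 fun b =>
      (K.wsm i _ hz a b).continuousAt
  have cwi : ContinuousAt (fun x => (K.w i (K.e i x))⁻¹) x := by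
    have hdet : (K.w i (K.e i x)).det ≠ 0 := (K.wpos i _ hz).det_pos.ne'
    have hd : ContinuousAt (fun x => (K.w i (K.e i x)).det) x :=
      ContinuousAt.comp (g := fun A : Matrix (Fin n) (Fin n) ℂ => A.det)
        (f := fun x => K.w i (K.e i x)) continuous_id.matrix_det.continuousAt cw
    have ha : ContinuousAt (fun x => (K.w i (K.e i x)).adjugate) x :=
      ContinuousAt.comp (g := fun A : Matrix (Fin n) (Fin n) ℂ => A.adjugate)
        (f := fun x => K.w i (K.e i x)) continuous_id.matrix_adjugate.continuousAt cw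
    simp only [Matrix.inv_def, Ring.inverse_eq_inv']
    exact (hd.inv₀ hdet).smul ha
  have cev : ∀ {f : M → Af n p}, ContinuousAt f x → ∀ s, ContinuousAt (fun x => ev (f x) s) x := by
    intro f hf s
    exact ((ContinuousAlternatingMap.apply ℂ (Cm n) ℂ
      (fun i => Pi.single (s i) (1 : ℂ))).continuous.continuousAt).comp hf
  refine c1.mul ?_
  unfold hn
  refine continuousAt_const.mul ?_
  refine tendsto_finsetSum _ fun s _ => tendsto_finsetSum _ fun t _ => ?_
  refine ContinuousAt.mul (ContinuousAt.mul (cev cη s) ?_) ?_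
  · exact Complex.continuous_conj.continuousAt.comp (cev cζ t)
  · refine tendsto_finsetProd _ fun k _ => ?_
    exact ((continuous_apply (s k)).continuousAt.comp
      ((continuous_apply (t k)).continuousAt.comp cwi))

theorem ip_add_left {p : ℕ} (k3 : K3Stmt n M K) {η η' ζ : K.Fm p} (h1 : K.Test η)
    (h2 : K.Test η') (h3 : K.Test ζ) : K.ip (η + η') ζ = K.ip η ζ + K.ip η' ζ := by
  unfold KA.ip
  rw [dn_add_left]
  exact integral_add (k3.int p η ζ h1 h3.form h3.smooth).1 (k3.int p η' ζ h2 h3.form h3.smooth).1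

theorem ip_add_right {p : ℕ} (k3 : K3Stmt n M K) {η ζ ζ' : K.Fm p} (h1 : K.Test η)
    (h2 : K.Test ζ) (h3 : K.Test ζ') : K.ip η (ζ + ζ') = K.ip η ζ + K.ip η ζ' := by
  unfold KA.ip
  rw [dn_add_right]
  exact integral_add (k3.int p η ζ h1 h2.form h2.smooth).1 (k3.int p η ζ' h1 h3.form h3.smooth).1

/-- the Hermitian form on the space of test forms -/
@[reducible] def tc (k1 : K1Stmt) (k3 : K3Stmt n M K) (p : ℕ) : PreInnerProductSpace.Core ℂ (TS K p) where
  inner x y := K.ip y.1 x.1
  conj_inner_symm x y := (ip_conj k1 _ _).symm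
  re_inner_nonneg x := by
    have h1 := (k3.int p x.1 x.1 x.2 x.2.form x.2.smooth).1
    change 0 ≤ (K.ip x.1 x.1).re
    unfold KA.ip
    have h2 : (∫ y, K.dn x.1 x.1 y ∂K.μ).re = ∫ y, (K.dn x.1 x.1 y).re ∂K.μ :=
      (integral_re h1).symm
    rw [h2]
    exact integral_nonneg fun y => dn_nonneg k1 _ y
  add_left x y z := ip_add_right k3 z.2 x.2 y.2
  smul_left x y r := ip_smul_right r y.1 x.1

theorem nq_eq {p : ℕ} (k3 : K3Stmt n M K) {η : K.Fm p} (h : K.Test η) :
    K.nq η = ∫ y, (K.dn η η y).re ∂K.μ :=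
  (integral_re (k3.int p η η h h.form h.smooth).1).symm

theorem nl_eq {p : ℕ} (k1 : K1Stmt) (k3 : K3Stmt n M K) {η : K.Fm p} (h : K.Test η) :
    K.nl η = ENNReal.ofReal (K.nq η) := by
  rw [nq_eq k3 h]
  exact (ofReal_integral_eq_lintegral_ofReal (k3.int p η η h h.form h.smooth).1.re
    (Eventually.of_forall fun y => dn_nonneg k1 η y)).symm

open Classical in
/-- `∂_h` on the test forms -/
def dT' (k3 : K3Stmt n M K) (p : ℕ) : TS K p →ₗ[ℂ] TS K (p + 1) where
  toFun x := ⟨K.dh x.1, k3.dh_test p x.1 x.2⟩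
  map_add' x y := by
    apply Subtype.ext
    funext i z
    change K.dh (x.1 + y.1) i z = K.dh x.1 i z + K.dh y.1 i z
    unfold KA.dh
    split_ifs with hz
    · exact dhL_add _ ((x.2.smooth i z hz).differentiableAt (by simp))
        ((y.2.smooth i z hz).differentiableAt (by simp))
    · rw [add_zero]
  map_smul' c x := by
    apply Subtype.ext
    funext i z
    change K.dh (c • x.1) i z = c • K.dh x.1 i z
    unfold KA.dh
    split_ifs with hz
    · exact dhL_smul _ c ((x.2.smooth i z hz).differentiableAt (by simp))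
    · ext v
      exact (mul_zero _).symm

open Classical in
/-- `S` on the test forms -/
def sT (k3 : K3Stmt n M K) (p : ℕ) : TS K (p + 1) →ₗ[ℂ] TS K p where
  toFun x := ⟨K.S x.1, k3.S_test p x.1 x.2⟩
  map_add' x y := by
    apply Subtype.ext
    funext i z
    change K.S (x.1 + y.1) i z = K.S x.1 i z + K.S y.1 i z
    unfold KA.S
    split_ifs with hz
    · exact SL_add _ ((x.2.smooth i z hz).differentiableAt (by simp))
        ((y.2.smooth i z hz).differentiableAt (by simp))
    · rw [add_zero]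
  map_smul' c x := by
    apply Subtype.ext
    funext i z
    change K.S (c • x.1) i z = c • K.S x.1 i z
    unfold KA.S
    split_ifs with hz
    · exact SL_smul _ c ((x.2.smooth i z hz).differentiableAt (by simp))
    · ext v
      exact (mul_zero _).symm

end Vale.Agent.P284.H286.K
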