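import Vale.Agent.P284.H286.K.EngB

/-!
# P284 (helper286), theorem K, the engine: cut-offs and the estimates of the norms
-/

open scoped ContDiff Topology ComplexConjugate ComplexOrder ENNReal
open Filter Set MeasureTheory

noncomputable section

namespace Vale.Agent.P284.H286.K

open Vale.Agent.P272.K Vale.Agent.P284.H608.K

variable {n : ℕ} {M : Type} [TopologicalSpace M] [MeasurableSpace M] {K : KA n M}

/-- cut-offs exhaust the manifold -/
theorem sigma_of_cut (χ : K.Cut) : SigmaCompactSpace M := by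
  choose C hC hC' using χ.supp
  refine ⟨⟨C, hC, ?_⟩⟩
  rw [Set.eq_univ_iff_forall]
  intro x
  obtain ⟨ν, hν⟩ := (χ.lim x).exists
  rw [Set.mem_iUnion]
  refine ⟨ν, ?_⟩
  by_contra h
  have h1 := hC' ν x h
  rw [hν.self_of_nhds] at h1
  exact one_ne_zero h1

theorem cut_mono (χ : K.Cut) (x : M) : Monotone fun ν => χ.χ ν x :=
  monotone_nat_of_le_succ fun ν => χ.mono ν x

/-- the cut-offs are `1` on a given compact set -/
theorem cut_one (χ : K.Cut) {C : Set M} (hC : IsCompact C) :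
    ∀ᶠ ν in atTop, ∀ x ∈ C, χ.χ ν x = 1 := by
  refine hC.induction_on (p := fun C => ∀ᶠ ν in atTop, ∀ x ∈ C, χ.χ ν x = 1) ?_ ?_ ?_ ?_
  · exact Eventually.of_forall fun ν x hx => absurd hx (notMem_empty x)
  · intro s t hst ht
    filter_upwards [ht] with ν hν x hx
    exact hν x (hst hx)
  · intro s t hs ht
    filter_upwards [hs, ht] with ν h1 h2 x hx
    exact hx.elim (h1 x) (h2 x)
  · intro x _
    obtain ⟨ν₀, hν₀⟩ := (χ.lim x).exists
    refine ⟨{x' | χ.χ ν₀ x' = 1}, nhdsWithin_le_nhds hν₀, ?_⟩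
    filter_upwards [eventually_ge_atTop ν₀] with ν hν x' hx'
    refine le_antisymm (χ.le_one ν x') ?_
    have h1 : χ.χ ν₀ x' ≤ χ.χ ν x' := cut_mono χ x' hν
    have h2 : χ.χ ν₀ x' = 1 := hx'
    rw [h2] at h1
    exact h1

/-- the product of a form and a cut-off -/
def cm (χ : K.Cut) {p : ℕ} (s : K.Fm p) (ν : ℕ) : K.Fm p := fun i z =>
  ((χ.χ ν ((K.e i).symm z) : ℝ) : ℂ) • s i z

theorem test_cm (χ : K.Cut) {p : ℕ} {s : K.Fm p} (h1 : K.IsForm s) (h2 : K.Smooth s) (ν : ℕ) :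
    K.Test (cm χ s ν) where
  form :=
    { change := by
        intro i j x hi hj
        have e1 := h1.change i j x hi hj
        ext v
        have f1 := congrArg (fun A : Af n p => A v) e1
        simp only [ContinuousAlternatingMap.smul_apply,
          ContinuousAlternatingMap.compContinuousLinearMap_apply, smul_eq_mul, cm,
          (K.e i).left_inv hi, (K.e j).left_inv hj] at f1 ⊢
        rw [f1]
        ring
      off := by
        intro i z hz
        unfold cm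
        rw [h1.off i z hz]
        ext v
        exact mul_zero _ }
  smooth := by
    intro i z hz
    exact (Complex.ofRealCLM.contDiff.contDiffAt.comp z (χ.sm ν i z hz)).smul (h2 i z hz)
  supp := by
    obtain ⟨C, hC, h3⟩ := χ.supp ν
    refine ⟨C, hC, fun i x hi hx => ?_⟩
    unfold cm
    rw [(K.e i).left_inv hi, h3 x hx]
    ext v
    change ((0 : ℝ) : ℂ) * _ = 0
    rw [Complex.ofReal_zero, zero_mul]

theorem dn_cm (χ : K.Cut) {p : ℕ} (s ζ : K.Fm p) (ν : ℕ) (x : M) :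
    K.dn (cm χ s ν) ζ x = (χ.χ ν x : ℂ) * K.dn s ζ x := by
  unfold KA.dn cm
  rw [(K.e (K.ix x)).left_inv (mem_ix K x), hn_smul_left]
  ring

theorem dn_cm_sub (χ : K.Cut) {p : ℕ} (s : K.Fm p) (ν : ℕ) (x : M) :
    (K.dn (cm χ s ν - s) (cm χ s ν - s) x).re = (χ.χ ν x - 1) ^ 2 * (K.dn s s x).re := by
  have h1 : (cm χ s ν - s) (K.ix x) (K.e (K.ix x) x) =
      (((χ.χ ν x - 1 : ℝ)) : ℂ) • s (K.ix x) (K.e (K.ix x) x) := by
    change cm χ s ν (K.ix x) (K.e (K.ix x) x) - s (K.ix x) (K.e (K.ix x) x) = _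
    unfold cm
    rw [(K.e (K.ix x)).left_inv (mem_ix K x)]
    ext v
    simp only [ContinuousAlternatingMap.sub_apply, ContinuousAlternatingMap.smul_apply,
      smul_eq_mul, Complex.ofReal_sub, Complex.ofReal_one]
    ring
  unfold KA.dn
  rw [h1, hn_smul_left, hn_smul_right, Complex.conj_ofReal]
  rw [Complex.re_ofReal_mul, Complex.re_ofReal_mul, Complex.re_ofReal_mul,
    Complex.re_ofReal_mul]
  ring

theorem dn_off {p : ℕ} (η : K.Fm p) {ζ : K.Fm p} {C : Set M} (h : K.Off C ζ) {x : M}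
    (hx : x ∉ C) : K.dn η ζ x = 0 := by
  unfold KA.dn
  rw [h _ x (mem_ix K x) hx, hn_zero_right, mul_zero]

theorem ip_cm (χ : K.Cut) {p : ℕ} (s : K.Fm p) {ζ : K.Fm p} (h : K.Test ζ) :
    ∀ᶠ ν in atTop, K.ip (cm χ s ν) ζ = K.ip s ζ := by
  obtain ⟨C, hC, h3⟩ := h.supp
  filter_upwards [cut_one χ hC] with ν hν
  unfold KA.ip
  refine integral_congr_ae (Eventually.of_forall fun x => ?_)
  change K.dn (cm χ s ν) ζ x = K.dn s ζ x
  by_cases hx : x ∈ C
  · rw [dn_cm, hν x hx, Complex.ofReal_one, one_mul]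
  · rw [dn_off _ h3 hx, dn_off _ h3 hx]

theorem ip_zero_left {p : ℕ} (ψ : K.Fm p) : K.ip 0 ψ = 0 := by
  unfold KA.ip
  have h : ∀ x, K.dn (0 : K.Fm p) ψ x = 0 := by
    intro x
    unfold KA.dn
    change _ * hn _ (0 : Af n p) _ = 0
    rw [hn_zero_left, mul_zero]
  simp only [h, integral_zero]

theorem nq_zero {p : ℕ} : K.nq (0 : K.Fm p) = 0 := by
  unfold KA.nq
  rw [ip_zero_left, Complex.zero_re]

theorem form_sub {p : ℕ} {η ζ : K.Fm p} (h1 : K.IsForm η) (h2 : K.IsForm ζ) :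
    K.IsForm (η - ζ) := by
  have h := form_add K h1 (form_smul K (-1) h2)
  have e : η + (-1 : ℂ) • ζ = η - ζ := by
    funext i z
    ext v
    change η i z v + (-1) * ζ i z v = η i z v - ζ i z v
    ring
  rwa [e] at h

theorem smooth_sub {p : ℕ} {η ζ : K.Fm p} (h1 : K.Smooth η) (h2 : K.Smooth ζ) :
    K.Smooth (η - ζ) := fun i z hz => (h1 i z hz).sub (h2 i z hz)

theorem smooth_of_hol {p : ℕ} {η : K.Fm p} (h : K.Hol η) : K.Smooth η := fun i z hz =>
  ((h i z hz).contDiffAt (n := (∞ : WithTop ℕ∞))).restrict_scalars ℝ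

theorem dT_nonneg (k1 : K1Stmt) {p : ℕ} (η : K.Fm p) (x : M) : 0 ≤ K.dT η x := by
  unfold KA.dT
  exact mul_nonneg (Real.exp_pos _).le (Complex.nonneg_iff.1 (k1.Tn_nonneg n p _
    (K.wpos _ _ ((K.e (K.ix x)).map_source (mem_ix K x))) _)).1

theorem dA_nonneg (k1 : K1Stmt)
    (hφ : ∀ i, ∀ z ∈ (K.e i).target, (cHess (K.φ i) z).PosSemidef) {p : ℕ} (η : K.Fm p) (x : M) :
    0 ≤ K.dA η x := by
  unfold KA.dA
  have hz := (K.e (K.ix x)).map_source (mem_ix K x)
  have h1 := k1.mono n p _ 0 _ (K.wpos _ _ hz)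
    (by rw [sub_zero]; exact hφ (K.ix x) _ hz) (η (K.ix x) (K.e (K.ix x) x))
  have h2 : Ad (K.w (K.ix x) (K.e (K.ix x) x)) 0 (η (K.ix x) (K.e (K.ix x) x)) = 0 := by
    simp [Ad]
  rw [h2] at h1
  exact mul_nonneg (Real.exp_pos _).le (Complex.nonneg_iff.1 h1).1

section norm

variable [T2Space M] [BorelSpace M]

/-- Young's inequality for the `L²` norm -/
theorem nl_young (k1 : K1Stmt) (k3 : K3Stmt n M K) {p : ℕ} {η ζ : K.Fm p} (h1 : K.IsForm η)
    (h2 : K.Smooth η) (h3 : K.IsForm ζ) (h4 : K.Smooth ζ) {δ : ℝ} (hδ : 0 < δ) :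
    K.nl (η + ζ) ≤ ENNReal.ofReal (1 + δ) * K.nl η + ENNReal.ofReal (1 + δ⁻¹) * K.nl ζ := by
  unfold KA.nl
  have m1 : Measurable fun x => ENNReal.ofReal (K.dn η η x).re :=
    (Complex.continuous_re.comp (continuous_dn k3 h1 h2 h1 h2)).measurable.ennreal_ofReal
  have m2 : Measurable fun x => ENNReal.ofReal (K.dn ζ ζ x).re :=
    (Complex.continuous_re.comp (continuous_dn k3 h3 h4 h3 h4)).measurable.ennreal_ofReal
  rw [← lintegral_const_mul _ m1, ← lintegral_const_mul _ m2,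
    ← lintegral_add_left (m1.const_mul _)]
  refine lintegral_mono fun x => ?_
  have hδ' : 0 < δ⁻¹ := inv_pos.2 hδ
  rw [← ENNReal.ofReal_mul (by positivity), ← ENNReal.ofReal_mul (by positivity),
    ← ENNReal.ofReal_add (mul_nonneg (by positivity) (dn_nonneg k1 _ _))
      (mul_nonneg (by positivity) (dn_nonneg k1 _ _))]
  exact ENNReal.ofReal_le_ofReal (dn_young k1 η ζ hδ x)

theorem nl_neg {p : ℕ} (η ζ : K.Fm p) : K.nl (η - ζ) = K.nl (ζ - η) := by
  unfold KA.nl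
  congr 1
  funext x
  have h1 : K.dn (η - ζ) (η - ζ) = K.dn ((-1 : ℂ) • (ζ - η)) ((-1 : ℂ) • (ζ - η)) := by
    congr 1 <;>
    · funext i z
      ext v
      change η i z v - ζ i z v = (-1) * (ζ i z v - η i z v)
      ring
  rw [h1, dn_smul_left]
  change ENNReal.ofReal (-1 * K.dn (ζ - η) ((-1 : ℂ) • (ζ - η)) x).re = _
  rw [dn_smul_right, map_neg, map_one]
  congr 2
  ring

/-- the cut-offs of a square integrable form converge to it -/
theorem nl_cm (k1 : K1Stmt) (k3 : K3Stmt n M K) (χ : K.Cut) {p : ℕ} {s : K.Fm p}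
    (h1 : K.IsForm s) (h2 : K.Smooth s) (h3 : K.nl s < ⊤) :
    Tendsto (fun ν => K.nl (cm χ s ν - s)) atTop (𝓝 0) := by
  have hz : (0 : ℝ≥0∞) = ∫⁻ _ : M, 0 ∂K.μ := by simp
  rw [hz]
  unfold KA.nl
  refine tendsto_lintegral_of_dominated_convergence
    (fun x => ENNReal.ofReal (K.dn s s x).re) (fun ν => ?_) (fun ν => ?_) h3.ne ?_
  · have t := test_cm χ h1 h2 ν
    have a := form_sub t.form h1
    have b := smooth_sub t.smooth h2
    exact (Complex.continuous_re.comp (continuous_dn k3 a b a b)).measurable.ennreal_ofReal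
  · refine Eventually.of_forall fun x => ?_
    refine ENNReal.ofReal_le_ofReal ?_
    rw [dn_cm_sub]
    have h4 := χ.nonneg ν x
    have h5 := χ.le_one ν x
    have h6 : (χ.χ ν x - 1) ^ 2 ≤ 1 := by nlinarith
    exact mul_le_of_le_one_left (dn_nonneg k1 s x) h6
  · refine Eventually.of_forall fun x => ?_
    refine tendsto_const_nhds.congr' ?_
    filter_upwards [χ.lim x] with ν hν
    rw [dn_cm_sub, hν.self_of_nhds, sub_self, zero_pow two_ne_zero, zero_mul, ENNReal.ofReal_zero]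

theorem nq_nonneg (k1 : K1Stmt) (k3 : K3Stmt n M K) {p : ℕ} {η : K.Fm p} (h : K.Test η) :
    0 ≤ K.nq η := by
  rw [nq_eq k3 h]
  exact integral_nonneg fun y => dn_nonneg k1 _ y

theorem cau_cm (k1 : K1Stmt) (k3 : K3Stmt n M K) (χ : K.Cut) {p : ℕ} {s : K.Fm p}
    (h1 : K.IsForm s) (h2 : K.Smooth s) (h3 : K.nl s < ⊤) :
    Tendsto (fun q : ℕ × ℕ => K.nq (cm χ s q.1 - cm χ s q.2)) atTop (𝓝 0) := by
  have hb := nl_cm k1 k3 χ h1 h2 h3
  have hle : ∀ q : ℕ × ℕ, ENNReal.ofReal (K.nq (cm χ s q.1 - cm χ s q.2)) ≤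
      2 * K.nl (cm χ s q.1 - s) + 2 * K.nl (cm χ s q.2 - s) := by
    intro q
    have t1 := test_cm χ h1 h2 q.1
    have t2 := test_cm χ h1 h2 q.2
    have t3 : K.Test (cm χ s q.1 - cm χ s q.2) := (TS K p).sub_mem t1 t2
    rw [← nl_eq k1 k3 t3]
    have e : cm χ s q.1 - cm χ s q.2 = (cm χ s q.1 - s) + (s - cm χ s q.2) := by abel
    have h := nl_young k1 k3 (form_sub t1.form h1) (smooth_sub t1.smooth h2)
      (form_sub h1 t2.form) (smooth_sub h2 t2.smooth) one_pos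
    rw [← e, nl_neg s] at h
    have e2 : ENNReal.ofReal (1 + 1) = 2 := by
      rw [one_add_one_eq_two]
      exact ENNReal.ofReal_ofNat 2
    rw [inv_one, e2] at h
    exact h
  have hlim : Tendsto (fun q : ℕ × ℕ => 2 * K.nl (cm χ s q.1 - s) + 2 * K.nl (cm χ s q.2 - s))
      atTop (𝓝 0) := by
    have a : Tendsto (fun ν => 2 * K.nl (cm χ s ν - s)) atTop (𝓝 0) := by
      have := ENNReal.Tendsto.const_mul hb (Or.inr (ENNReal.ofNat_ne_top (n := 2)))
      rwa [mul_zero] at this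
    have b := (a.comp (tendsto_fst (f := atTop) (g := (atTop : Filter ℕ)))).add
      (a.comp (tendsto_snd (f := (atTop : Filter ℕ)) (g := atTop)))
    rw [prod_atTop_atTop_eq, add_zero] at b
    exact b
  have h4 : Tendsto (fun q : ℕ × ℕ => ENNReal.ofReal (K.nq (cm χ s q.1 - cm χ s q.2))) atTop
      (𝓝 0) := tendsto_of_tendsto_of_tendsto_of_le_of_le tendsto_const_nhds hlim
        (fun _ => zero_le) hle
  have h5 := (ENNReal.tendsto_toReal ENNReal.zero_ne_top).comp h4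
  rw [ENNReal.toReal_zero] at h5
  refine h5.congr fun q => ?_
  exact ENNReal.toReal_ofReal (nq_nonneg k1 k3
    ((TS K p).sub_mem (test_cm χ h1 h2 q.1) (test_cm χ h1 h2 q.2)))

end norm

end Vale.Agent.P284.H286.K
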