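import Mathlib
import Vale.Agent.P284.H608.K.Spec

/-!
# P284 (helper286), theorem K: the volume measure of a manifold with framed charts
-/

open scoped ContDiff Topology ComplexConjugate ComplexOrder ENNReal
open Filter Set MeasureTheory

noncomputable section

namespace Vale.Agent.P284.H286.K

open Vale.Agent.P272.K Vale.Agent.P284.H608.K

theorem abs_det_rs {n : ℕ} (A : Cm n →L[ℂ] Cm n) :
    |(A.restrictScalars ℝ).det| = ‖A.det‖ ^ 2 := by
  have h1 : (A.restrictScalars ℝ).det = Complex.normSq A.det := by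
    rw [ContinuousLinearMap.det, ContinuousLinearMap.det]
    have h2 : ((A.restrictScalars ℝ : Cm n →L[ℝ] Cm n) : Cm n →ₗ[ℝ] Cm n) =
        (A : Cm n →ₗ[ℂ] Cm n).restrictScalars ℝ := rfl
    rw [h2, LinearMap.det_restrictScalars, Algebra.norm_complex_apply]
  rw [h1, Complex.normSq_eq_norm_sq, abs_of_nonneg (by positivity)]

theorem dz_hol {n : ℕ} (j : Fin n) {f : Cm n → ℂ} {z : Cm n} (h : DifferentiableAt ℂ f z) :
    dz j f z = fderiv ℂ f z (Pi.single j 1) := by
  have h1 : fderiv ℝ f z = (fderiv ℂ f z).restrictScalars ℝ :=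
    (h.hasFDerivAt.restrictScalars ℝ).fderiv
  unfold dz
  rw [h1]
  simp only [ContinuousLinearMap.coe_restrictScalars']
  have h2 : (Pi.single j Complex.I : Cm n) = Complex.I • Pi.single j 1 := by
    rw [← Pi.single_smul, smul_eq_mul, mul_one]
  rw [h2, map_smul, smul_eq_mul]
  linear_combination (-(1 / 2 : ℂ)) * (fderiv ℂ f z (Pi.single j 1)) * Complex.I_mul_I

theorem det_jac {n : ℕ} {M : Type} [TopologicalSpace M] (e e' : OpenPartialHomeomorph M (Cm n))
    (x : M) (h : AnalyticAt ℂ (fun z => e' (e.symm z)) (e x)) :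
    (fderiv ℂ (fun z => e' (e.symm z)) (e x)).det = (jacM e e' x).det := by
  rw [ContinuousLinearMap.det, ← LinearMap.det_toMatrix']
  congr 1
  ext p i
  rw [LinearMap.toMatrix'_apply]
  unfold jacM
  rw [Matrix.of_apply]
  have hd := h.differentiableAt
  have h1 : DifferentiableAt ℂ (fun z => e' (e.symm z) p) (e x) := by
    have := differentiableAt_pi.1 hd p
    exact this
  rw [dz_hol i h1]
  have h2 : fderiv ℂ (fun z => e' (e.symm z) p) (e x) =
      (ContinuousLinearMap.proj p).comp (fderiv ℂ (fun z => e' (e.symm z)) (e x)) :=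
    ((ContinuousLinearMap.proj (R := ℂ) (φ := fun _ : Fin n => ℂ) p).hasFDerivAt.comp (e x)
      hd.hasFDerivAt).fderiv
  rw [h2]
  simp only [ContinuousLinearMap.comp_apply, ContinuousLinearMap.proj_apply,
    ContinuousLinearMap.coe_coe]

section

variable {n : ℕ} {M : Type} [TopologicalSpace M] [MeasurableSpace M] [BorelSpace M]

/-- a measurable extension of the inverse of a chart -/
theorem exists_ext [Nonempty M] (e : OpenPartialHomeomorph M (Cm n)) :
    ∃ g : Cm n → M, Measurable g ∧ ∀ z ∈ e.target, g z = e.symm z := by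
  classical
  obtain ⟨x₀⟩ := ‹Nonempty M›
  refine ⟨e.target.piecewise e.symm fun _ => x₀, ?_, fun z hz => piecewise_eq_of_mem _ _ _ hz⟩
  exact ContinuousOn.measurable_piecewise e.continuousOn_symm continuousOn_const
    e.open_target.measurableSet

theorem meas_image [Nonempty M] (e : OpenPartialHomeomorph M (Cm n)) {A : Set M}
    (hA : MeasurableSet A) (hs : A ⊆ e.source) : MeasurableSet (e '' A) := by
  obtain ⟨g, hg, hge⟩ := exists_ext e
  rw [e.image_eq_target_inter_inv_preimage hs]
  have : e.target ∩ e.symm ⁻¹' A = e.target ∩ g ⁻¹' A := by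
    ext z
    refine and_congr_right fun hz => ?_
    rw [mem_preimage, mem_preimage, hge z hz]
  rw [this]
  exact e.open_target.measurableSet.inter (hg hA)

/-- the local measure -/
theorem exists_loc [Nonempty M] (e : OpenPartialHomeomorph M (Cm n)) {D : Cm n → ℝ}
    (hD : ContinuousOn D e.target) : ∃ ν : Measure M, ∀ f : M → ℝ≥0∞, Measurable f →
      ∫⁻ x, f x ∂ν = ∫⁻ z in e.target, f (e.symm z) * ENNReal.ofReal (D z) := by
  obtain ⟨g, hg, hge⟩ := exists_ext e
  have hDm : AEMeasurable (fun z => ENNReal.ofReal (D z)) (volume.restrict e.target) :=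
    (hD.aemeasurable e.open_target.measurableSet).ennreal_ofReal
  refine ⟨Measure.map g ((volume.restrict e.target).withDensity fun z => ENNReal.ofReal (D z)),
    fun f hf => ?_⟩
  rw [lintegral_map hf hg]
  refine (lintegral_withDensity_eq_lintegral_mul₀ hDm (hf.comp hg).aemeasurable).trans ?_
  refine setLIntegral_congr_fun e.open_target.measurableSet fun z hz => ?_
  change ENNReal.ofReal (D z) * f (g z) = _
  rw [hge z hz, mul_comm]

/-- integrals over subsets of a chart domain -/
theorem set_loc [Nonempty M] (e : OpenPartialHomeomorph M (Cm n)) {D : Cm n → ℝ} {ν : Measure M}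
    (hν : ∀ f : M → ℝ≥0∞, Measurable f →
      ∫⁻ x, f x ∂ν = ∫⁻ z in e.target, f (e.symm z) * ENNReal.ofReal (D z))
    {A : Set M} (hA : MeasurableSet A) (hs : A ⊆ e.source) {f : M → ℝ≥0∞} (hf : Measurable f) :
    ∫⁻ x in A, f x ∂ν = ∫⁻ z in e '' A, f (e.symm z) * ENNReal.ofReal (D z) := by
  rw [← lintegral_indicator hA, hν _ (hf.indicator hA)]
  have hm := meas_image e hA hs
  have hsub : e '' A ⊆ e.target := by
    rintro _ ⟨x, hx, rfl⟩
    exact e.map_source (hs hx)
  rw [← inter_eq_self_of_subset_left hsub, ← setLIntegral_indicator hm]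
  refine setLIntegral_congr_fun e.open_target.measurableSet fun z hz => ?_
  by_cases hzA : e.symm z ∈ A
  · have hz2 : z ∈ e '' A := ⟨e.symm z, hzA, e.right_inv hz⟩
    rw [indicator_of_mem hz2, indicator_of_mem hzA]
  · have hz2 : z ∉ e '' A := by
      rintro ⟨x, hx, rfl⟩
      exact hzA (by rwa [e.left_inv (hs hx)])
    rw [indicator_of_notMem hz2, indicator_of_notMem hzA, zero_mul]

/-- change of charts -/
theorem change_loc [Nonempty M] (e e' : OpenPartialHomeomorph M (Cm n)) {D D' : Cm n → ℝ}
    (han : ∀ z, z ∈ e.target → e.symm z ∈ e'.source → AnalyticAt ℂ (fun z => e' (e.symm z)) z)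
    (hD : ∀ x, x ∈ e.source → x ∈ e'.source →
      D (e x) = ‖(jacM e e' x).det‖ ^ 2 * D' (e' x))
    {A : Set M} (hA : MeasurableSet A) (hs : A ⊆ e.source) (hs' : A ⊆ e'.source)
    (f : M → ℝ≥0∞) :
    ∫⁻ z in e' '' A, f (e'.symm z) * ENNReal.ofReal (D' z) =
      ∫⁻ z in e '' A, f (e.symm z) * ENNReal.ofReal (D z) := by
  have hm := meas_image e hA hs
  have him : e' '' A = (fun z => e' (e.symm z)) '' (e '' A) := by
    rw [image_image]
    refine image_congr fun x hx => ?_
    rw [e.left_inv (hs hx)]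
  have hder : ∀ z ∈ e '' A, HasFDerivWithinAt (fun z => e' (e.symm z))
      ((fderiv ℂ (fun z => e' (e.symm z)) z).restrictScalars ℝ) (e '' A) z := by
    rintro _ ⟨x, hx, rfl⟩
    refine HasFDerivAt.hasFDerivWithinAt ?_
    refine HasFDerivAt.restrictScalars ℝ ?_
    exact (han _ (e.map_source (hs hx)) (by rw [e.left_inv (hs hx)]; exact hs' hx)
      ).differentiableAt.hasFDerivAt
  have hinj : InjOn (fun z => e' (e.symm z)) (e '' A) := by
    rintro _ ⟨x, hx, rfl⟩ _ ⟨y, hy, rfl⟩ h
    simp only [e.left_inv (hs hx), e.left_inv (hs hy)] at h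
    rw [e'.injOn (hs' hx) (hs' hy) h]
  rw [him, lintegral_image_eq_lintegral_abs_det_fderiv_mul volume hm hder hinj]
  refine setLIntegral_congr_fun hm ?_
  rintro _ ⟨x, hx, rfl⟩
  have hxe := hs hx
  have hxe' := hs' hx
  have ha := han _ (e.map_source hxe) (by rw [e.left_inv hxe]; exact hxe')
  change ENNReal.ofReal |((fderiv ℂ (fun z => e' (e.symm z)) (e x)).restrictScalars ℝ).det| *
    (f (e'.symm (e' (e.symm (e x)))) * ENNReal.ofReal (D' (e' (e.symm (e x))))) =
      f (e.symm (e x)) * ENNReal.ofReal (D (e x))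
  rw [e.left_inv hxe, e'.left_inv hxe', abs_det_rs, det_jac e e' x ha, hD x hxe hxe',
    ENNReal.ofReal_mul (by positivity)]
  ring

end

/-- **MEAS** -/
theorem measStmt : MeasStmt := by
  intro n M _ _ _ _ _ I e D hcov han hDc hDp hDch
  rcases isEmpty_or_nonempty M with hM | hM
  · refine ⟨0, fun i f _ _ => ?_⟩
    have h1 : (e i).target = ∅ := by
      rw [Set.eq_empty_iff_forall_notMem]
      intro z _
      exact hM.false ((e i).symm z)
    rw [h1]
    simp
  choose ν hν using fun i => exists_loc (e i) (hDc i)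
  obtain ⟨r, hr, hru⟩ := (isLindelof_univ (X := M)).elim_countable_subcover
    (fun i => (e i).source) (fun i => (e i).open_source) (fun x _ => mem_iUnion.2 (hcov x))
  have hrne : r.Nonempty := by
    obtain ⟨x⟩ := hM
    have := hru (mem_univ x)
    rw [mem_iUnion₂] at this
    obtain ⟨i, hi, -⟩ := this
    exact ⟨i, hi⟩
  obtain ⟨k, hk⟩ := hr.exists_eq_range hrne
  set A : ℕ → Set M := disjointed fun m => (e (k m)).source with hAdef
  have hAm : ∀ m, MeasurableSet (A m) := fun m =>
    MeasurableSet.disjointed (fun m => (e (k m)).open_source.measurableSet) m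
  have hAs : ∀ m, A m ⊆ (e (k m)).source := fun m => disjointed_subset _ m
  have hAd : Pairwise (Function.onFun Disjoint A) := disjoint_disjointed _
  have hAu : ⋃ m, A m = univ := by
    rw [hAdef, iUnion_disjointed, Set.eq_univ_iff_forall]
    intro x
    have := hru (mem_univ x)
    rw [mem_iUnion₂] at this
    obtain ⟨i, hi, hx⟩ := this
    rw [hk] at hi
    obtain ⟨m, rfl⟩ := hi
    exact mem_iUnion.2 ⟨m, hx⟩
  refine ⟨Measure.sum fun m => (ν (k m)).restrict (A m), fun i f hf hoff => ?_⟩
  rw [← hν i f hf, lintegral_sum_measure]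
  have hS : MeasurableSet (e i).source := (e i).open_source.measurableSet
  have hres : ∀ (μ : Measure M) (m : ℕ), ∫⁻ x in A m, f x ∂μ =
      ∫⁻ x in A m ∩ (e i).source, f x ∂μ := by
    intro μ m
    have h1 : f = (e i).source.indicator f := by
      funext x
      by_cases hx : x ∈ (e i).source
      · rw [indicator_of_mem hx]
      · rw [indicator_of_notMem hx, hoff x hx]
    conv_lhs => rw [h1]
    exact setLIntegral_indicator hS f |>.trans (by rw [inter_comm])
  have key : ∀ m, ∫⁻ x in A m, f x ∂(ν (k m)) = ∫⁻ x in A m, f x ∂(ν i) := by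
    intro m
    rw [hres, hres (ν i)]
    have hB : MeasurableSet (A m ∩ (e i).source) := (hAm m).inter hS
    have h1 : A m ∩ (e i).source ⊆ (e (k m)).source := inter_subset_left.trans (hAs m)
    rw [set_loc (e (k m)) (hν (k m)) hB h1 hf, set_loc (e i) (hν i) hB inter_subset_right hf]
    exact (change_loc (e (k m)) (e i) (han (k m) i) (hDch (k m) i) hB h1 inter_subset_right
      f).symm
  simp only [key]
  rw [← lintegral_iUnion hAm hAd, hAu, Measure.restrict_univ]

end Vale.Agent.P284.H286.K
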